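import Crest.Agent.X262.Alg44.Defs
import Crest.Agent.X262.FG.Pt0
import Crest.Agent.X277.AN.G1AlgB
import Crest.Agent.R271.UfdC_243

/-!
# Row 262, G4 / ALG (helper46): local rings of the total space are factorial

* `flat_of_dense` : a complete ring with the same finite order neighbourhoods is flat;
* `ufd_of_tay`    : a noetherian local ring with a Taylor map and parameters is factorial;
* `ufdStmt : Alg44.UfdStmt`.
-/

set_option autoImplicit false
set_option linter.style.haveILetI false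

open IsLocalRing

noncomputable section

namespace Crest.Agent.X262.Ufd46

open Crest.Agent.X277 Crest.Agent.X277.Lef Crest.Agent.X277.AN.G1
open Crest.Agent.R271.UFD243
open Crest.Agent.X262.Mv99 (serR oR mem_serR)

/-- a complete ring with the same finite order neighbourhoods is flat -/
theorem flat_of_dense {R S : Type} [CommRing R] [CommRing S] [Algebra R S] [IsNoetherianRing R]
    (I : Ideal R) [IsAdicComplete (I.map (algebraMap R S)) S]
    (hs : ∀ s : S, ∃ r : R, s - algebraMap R S r ∈ I.map (algebraMap R S))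
    (hi : ∀ (n : ℕ) (r : R), algebraMap R S r ∈ I.map (algebraMap R S) ^ n → r ∈ I ^ n) :
    Module.Flat R S := by
  haveI : IsAdicComplete I S := (IsAdicComplete.map_algebraMap_iff I S).1 ‹_›
  have h1 : Function.Surjective (AdicCompletion.map I (Algebra.linearMap R S)) := by
    refine AdicCompletion.map_surjective_of_mkQ_comp_surjective fun y => ?_
    obtain ⟨s, rfl⟩ := Submodule.Quotient.mk_surjective _ y
    obtain ⟨r, hr⟩ := hs s
    refine ⟨r, ((Submodule.Quotient.eq _).2 ?_).symm⟩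
    rw [Ideal.smul_top_eq_map]
    exact hr
  have h2 : Function.Injective (AdicCompletion.map I (Algebra.linearMap R S)) := by
    rw [injective_iff_map_eq_zero]
    intro y hy
    ext n
    have h3 : (AdicCompletion.map I (Algebra.linearMap R S) y).val n = 0 := by rw [hy]; rfl
    rw [AdicCompletion.map_val_apply] at h3
    obtain ⟨r, hr⟩ := Submodule.Quotient.mk_surjective _ (y.val n)
    rw [← hr, LinearMap.reduceModIdeal_apply, Submodule.Quotient.mk_eq_zero,
      Ideal.smul_top_eq_map, Ideal.map_pow] at h3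
    have h4 : y.val n = 0 := by
      rw [← hr, Submodule.Quotient.mk_eq_zero, smul_eq_mul, Ideal.mul_top]
      exact hi n r h3
    rw [h4]
    rfl
  exact Module.Flat.of_linearEquiv ((AdicCompletion.ofLinearEquiv I S).trans
    ((LinearEquiv.ofBijective _ ⟨h2, h1⟩).restrictScalars R).symm)

theorem mem_max {n : ℕ} {f : MvPowerSeries (Fin n) ℂ} :
    f ∈ maximalIdeal (MvPowerSeries (Fin n) ℂ) ↔ MvPowerSeries.constantCoeff f = 0 := by
  rw [maximalIdeal_eq_span, mem_span_range_X_iff]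

theorem le_order {n a : ℕ} {f : MvPowerSeries (Fin n) ℂ}
    (h : f ∈ maximalIdeal (MvPowerSeries (Fin n) ℂ) ^ a) : (a : ℕ∞) ≤ f.order := by
  have h1 : maximalIdeal (MvPowerSeries (Fin n) ℂ) = Jet.ordI (AlgHom.id ℂ _) 1 := by
    ext g
    rw [mem_max, Jet.mem_ordI_one]
    rfl
  rw [h1] at h
  exact Jet.ordI_one_pow_le _ a h

/-- a noetherian local ring with a Taylor map and parameters is factorial -/
theorem ufd_of_tay {O : Type} [CommRing O] [IsDomain O] [IsNoetherianRing O] [Algebra ℂ O] {n : ℕ}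
    (T : O →ₐ[ℂ] MvPowerSeries (Fin n) ℂ)
    (hu : ∀ f, MvPowerSeries.constantCoeff (T f) ≠ 0 → IsUnit f) (t : Fin n → O)
    (ht : ∀ i, T (t i) - MvPowerSeries.X i ∈ maximalIdeal (MvPowerSeries (Fin n) ℂ) ^ 2)
    (hm : ∀ f, MvPowerSeries.constantCoeff (T f) = 0 → f ∈ Ideal.span (Set.range t)) :
    UniqueFactorizationMonoid O := by
  haveI : IsLocalRing O := by
    refine IsLocalRing.of_isUnit_or_isUnit_one_sub_self fun a => ?_
    by_cases h : MvPowerSeries.constantCoeff (T a) = 0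
    · refine Or.inr (hu _ ?_)
      rw [map_sub, map_sub, h, map_one, map_one, sub_zero]
      exact one_ne_zero
    · exact Or.inl (hu a h)
  letI : Algebra O (MvPowerSeries (Fin n) ℂ) := T.toRingHom.toAlgebra
  have hT : ∀ f, algebraMap O (MvPowerSeries (Fin n) ℂ) f = T f := fun _ => rfl
  haveI : IsLocalHom (algebraMap O (MvPowerSeries (Fin n) ℂ)) :=
    ⟨fun f hf => hu f (MvPowerSeries.isUnit_iff_constantCoeff.1 hf).ne_zero⟩
  have hX : ∀ i, MvPowerSeries.X i ∈ maximalIdeal (MvPowerSeries (Fin n) ℂ) := fun i =>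
    mem_max.2 (by simp)
  have ht1 : ∀ i, t i ∈ Jet.ordI T 1 := fun i => by
    rw [Jet.mem_ordI_one, ← mem_max, ← sub_add_cancel (T (t i)) (MvPowerSeries.X i)]
    exact add_mem (Ideal.pow_le_self two_ne_zero (ht i)) (hX i)
  have h1 : (Jet.ordI T 1).map (algebraMap O (MvPowerSeries (Fin n) ℂ)) =
      maximalIdeal (MvPowerSeries (Fin n) ℂ) := by
    refine le_antisymm (Ideal.map_le_iff_le_comap.2 fun f hf => ?_) ?_
    · exact mem_max.2 (Jet.mem_ordI_one.1 hf)
    · refine Submodule.le_of_le_smul_of_le_jacobson_bot (IsNoetherian.noetherian _)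
        (maximalIdeal_le_jacobson ⊥) ?_
      nth_rewrite 1 [maximalIdeal_eq_span]
      rw [Ideal.span_le]
      rintro _ ⟨i, rfl⟩
      rw [smul_eq_mul, ← pow_two, ← sub_sub_cancel (T (t i)) (MvPowerSeries.X i)]
      exact sub_mem (Submodule.mem_sup_left (Ideal.mem_map_of_mem _ (ht1 i)))
        (Submodule.mem_sup_right (ht i))
  haveI : IsAdicComplete ((Jet.ordI T 1).map (algebraMap O (MvPowerSeries (Fin n) ℂ)))
      (MvPowerSeries (Fin n) ℂ) := by
    rw [h1]
    infer_instance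
  haveI : Module.Flat O (MvPowerSeries (Fin n) ℂ) := by
    refine flat_of_dense (Jet.ordI T 1) (fun s => ?_) fun a r hr => ?_
    · refine ⟨algebraMap ℂ O (MvPowerSeries.constantCoeff s), ?_⟩
      rw [h1, hT, AlgHom.commutes, mem_max, map_sub]
      simp [MvPowerSeries.algebraMap_apply]
    · rw [← Jet.ordI_eq_pow (t := t) (fun i => ?_)
        (le_sup_of_le_left fun f hf => hm f (Jet.mem_ordI_one.1 hf))]
      · exact le_order (h1 ▸ hr)
      · have h2 := le_order (ht i)
        rwa [Jet.Init, Finsupp.degree_single]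
  haveI := mvPowerSeries_ufd (k := ℂ) n
  exact ufd_of_flat_local O (MvPowerSeries (Fin n) ℂ)

open PowerSeries

theorem const_symm {n : ℕ} (g : (MvPowerSeries (Fin n) ℂ)⟦X⟧) :
    MvPowerSeries.constantCoeff ((MvPowerSeries.finSuccEquiv ℂ n).symm g) =
      MvPowerSeries.constantCoeff (constantCoeff g) := by
  have h := MvPowerSeries.coeff_coeff_finSuccEquiv ((MvPowerSeries.finSuccEquiv ℂ n).symm g)
    (k := 0) (x := 0)
  rw [Finsupp.cons_zero_zero, AlgEquiv.apply_symm_apply] at h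
  simpa using h.symm

theorem symm_mem_sq {n : ℕ} {g : (MvPowerSeries (Fin n) ℂ)⟦X⟧} (h0 : constantCoeff g = 0)
    (h1 : MvPowerSeries.constantCoeff (coeff 1 g) = 0) :
    (MvPowerSeries.finSuccEquiv ℂ n).symm g ∈
      maximalIdeal (MvPowerSeries (Fin (n + 1)) ℂ) ^ 2 := by
  obtain ⟨g, rfl⟩ := X_dvd_iff.2 h0
  rw [map_mul, pow_two]
  refine Ideal.mul_mem_mul ?_ ?_
  · rw [mem_max, const_symm]
    simp
  · rw [mem_max, const_symm]
    simpa using h1

variable {F : Type} [Field F] [Algebra ℂ F]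

/-- series with coefficients in a subring -/
def lft (O : Subalgebra ℂ F) : serR O.toSubring →+* O⟦X⟧ where
  toFun f := mk fun i => ⟨coeff i (f : F⟦X⟧), f.2 i⟩
  map_one' := by
    ext i
    simp only [coeff_mk, OneMemClass.coe_one, coeff_one]
    split_ifs <;> rfl
  map_mul' f g := by
    ext i
    simp [coeff_mul]
  map_zero' := by
    ext i
    simp
  map_add' f g := by
    ext i
    simp

theorem coeff_lft (O : Subalgebra ℂ F) (f : serR O.toSubring) (i : ℕ) :
    (coeff i (lft O f) : O) = ⟨coeff i (f : F⟦X⟧), f.2 i⟩ :=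
  coeff_mk i fun i => (⟨coeff i (f : F⟦X⟧), f.2 i⟩ : O)

/-- **local rings of the total space are factorial** -/
theorem ufdStmt : Alg44.UfdStmt := by
  intro F _ _ P b x A hA hN hX hC hsat hsur hloc
  obtain ⟨i, hi⟩ := exists_pat x
  obtain ⟨z, -, hz0, hz⟩ := exists_crd_A b hi
  have hL := lp_fin x
  set τ := FG.Pt.tayP hL b hz
  have τ0 : ∀ a, MvPowerSeries.constantCoeff (τ a) = ev (a : F) x := fun a => Jet.const_tay _ _ a
  have τz : ∀ l, τ ⟨z l, hz.mem l⟩ = MvPowerSeries.X l := fun l => by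
    have h2 := Jet.tay_coord (FG.Pt.frO hL b hz) (lp x).hom (y := ⟨z l, hz.mem l⟩) (j := l)
      fun i => Subtype.ext (by
        rw [FG.Pt.coe_frO, pd_self (hz.jac_ne hL b)]
        split_ifs <;> rfl)
    have h3 : (lp x).hom ⟨z l, hz.mem l⟩ = 0 := hz0 l
    rw [h3, map_zero, zero_add] at h2
    exact h2
  letI : Algebra ℂ A := ((C.comp (algebraMap ℂ F)).codRestrict A hC).toAlgebra
  let ρ : A →+* (MvPowerSeries (Fin 2) ℂ)⟦X⟧ :=
    ((map τ.toRingHom).comp (lft (lp x).O)).comp (Subring.inclusion hA)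
  have hρ : ∀ (f : A) (k : ℕ), coeff k (ρ f) = τ ⟨coeff k (f : F⟦X⟧), hA f.2 k⟩ := fun f k => by
    change coeff k (map τ.toRingHom (lft (lp x).O (Subring.inclusion hA f))) = _
    rw [coeff_map, coeff_lft]
    rfl
  have hρ0 : ∀ f : A, constantCoeff (ρ f) = τ ⟨coeff 0 (f : F⟦X⟧), hA f.2 0⟩ := fun f => by
    rw [← hρ, coeff_zero_eq_constantCoeff_apply]
  let T : A →ₐ[ℂ] MvPowerSeries (Fin 3) ℂ :=
    { (MvPowerSeries.finSuccEquiv ℂ 2).symm.toRingEquiv.toRingHom.comp ρ with
      commutes' := fun c => by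
        change (MvPowerSeries.finSuccEquiv ℂ 2).symm (ρ (algebraMap ℂ A c)) = _
        rw [AlgEquiv.symm_apply_eq, AlgEquiv.commutes]
        ext1 k
        rw [hρ, PowerSeries.algebraMap_apply, ← τ.commutes, coeff_C]
        split_ifs with h
        · exact congrArg τ (Subtype.ext (by subst h; exact coeff_zero_C _))
        · rw [← map_zero τ]
          exact congrArg τ (Subtype.ext (coeff_C_of_ne_zero h)) }
  have hT : ∀ f, T f = (MvPowerSeries.finSuccEquiv ℂ 2).symm (ρ f) := fun _ => rfl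
  have T0 : ∀ f : A, MvPowerSeries.constantCoeff (T f) = ev (constantCoeff (f : F⟦X⟧)) x :=
    fun f => by rw [hT, const_symm, hρ0, τ0, ← coeff_zero_eq_constantCoeff_apply]
  have ht : ∀ l, ∃ f : A, constantCoeff (f : F⟦X⟧) = z l ∧ ev (coeff 1 (f : F⟦X⟧)) x = 0 := by
    intro l
    obtain ⟨f, hf, h⟩ := hsur (z l) (hz.mem l)
    refine ⟨⟨f - C (algebraMap ℂ F (ev (coeff 1 f) x)) * X, sub_mem hf (mul_mem (hC _) hX)⟩,
      by simpa using h, ?_⟩
    have h1 : coeff 1 (f - C (algebraMap ℂ F (ev (coeff 1 f) x)) * X) =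
        coeff 1 f - algebraMap ℂ F (ev (coeff 1 f) x) := by simp
    change ev (coeff 1 (f - C (algebraMap ℂ F (ev (coeff 1 f) x)) * X)) x = 0
    rw [h1, ev, LP.v_sub (hA hf 1) (algebraMap_mem _ _), (lp x).v_alg, sub_self]
  choose t ht0 ht1 using ht
  refine ufd_of_tay T (fun f hf => ?_) (Fin.cons ⟨X, hX⟩ t) (fun l => ?_) fun f hf => ?_
  · obtain ⟨g, hg, h⟩ := hloc f f.2 (T0 f ▸ hf)
    exact IsUnit.of_mul_eq_one ⟨g, hg⟩ (Subtype.ext h)
  · rw [hT, ← (MvPowerSeries.finSuccEquiv ℂ 2).symm_apply_apply (MvPowerSeries.X l), ← map_sub]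
    refine Fin.cases ?_ (fun l => ?_) l
    · have h1 : ρ ⟨X, hX⟩ = X := by
        ext1 k
        rw [coeff_X, hρ]
        split_ifs with h
        · rw [← map_one τ]
          exact congrArg τ (Subtype.ext (by subst h; exact coeff_one_X))
        · rw [← map_zero τ]
          exact congrArg τ (Subtype.ext (by simp [coeff_X, h]))
      rw [Fin.cons_zero, h1, MvPowerSeries.finSuccEquiv_X_zero, sub_self, map_zero]
      exact zero_mem _
    · rw [Fin.cons_succ, MvPowerSeries.finSuccEquiv_X_succ]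
      refine symm_mem_sq ?_ ?_
      · rw [map_sub, hρ0, constantCoeff_C, ← τz, sub_eq_zero]
        exact congrArg τ (Subtype.ext (by simpa using ht0 l))
      · rw [map_sub, coeff_C_of_ne_zero one_ne_zero, sub_zero, hρ, τ0]
        exact ht1 l
  · rw [T0] at hf
    obtain ⟨c, hc, h⟩ := hz.gen (constantCoeff (f : F⟦X⟧)) (by simpa using hA f.2 0)
    choose g hg hg0 using fun l => hsur (c l) (hc l)
    have h1 : constantCoeff ((f - ∑ l, ⟨g l, hg l⟩ * t l : A) : F⟦X⟧) = 0 := by
      push_cast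
      rw [map_sub, map_sum, h, show (lp x).v _ = 0 from hf, map_zero, zero_add, sub_eq_zero]
      refine Finset.sum_congr rfl fun l _ => ?_
      rw [map_mul, hg0, ht0, show (lp x).v _ = 0 from hz0 l, map_zero, sub_zero]
    obtain ⟨u, hu⟩ := X_dvd_iff.2 h1
    have h2 : u ∈ A := hsat u (hu ▸ (f - ∑ l, ⟨g l, hg l⟩ * t l : A).2)
    have h3 : f = ⟨u, h2⟩ * ⟨X, hX⟩ + ∑ l, ⟨g l, hg l⟩ * t l := by
      rw [← sub_eq_iff_eq_add]
      exact Subtype.ext (hu.trans (mul_comm _ _))
    rw [h3]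
    exact add_mem (Ideal.mul_mem_left _ _ (Ideal.subset_span ⟨0, rfl⟩))
      (sum_mem fun l _ => Ideal.mul_mem_left _ _ (Ideal.subset_span ⟨l.succ, rfl⟩))

end Crest.Agent.X262.Ufd46
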